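import Mathlib.Data.Matrix.ColumnRowPartitioned
import Vale.Agent.P089.Bdl.B3

set_option linter.all false

/-!
# Continuity of additive invariants of idempotent matrices
-/

namespace Vale.Agent.P089GS

open Matrix Vale.Agent.P212 Vale.Agent.P089.Asm

/-- An additive invariant of idempotent matrices over `R` with values in `Γ`. -/
structure Inv (R : Type) [Ring R] (Γ : Type) [AddCommGroup Γ] where
  f : ∀ {ι : Type} [Fintype ι] (e : Matrix ι ι R), e * e = e → Γ
  mvn : ∀ {ι κ : Type} [Fintype ι] [Fintype κ] (e : Matrix ι ι R) (e' : Matrix κ κ R)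
    (he : e * e = e) (he' : e' * e' = e'), MvN e e' → f e he = f e' he'
  add : ∀ {ι κ : Type} [Fintype ι] [Fintype κ] (e : Matrix ι ι R) (e' : Matrix κ κ R)
    (he : e * e = e) (he' : e' * e' = e')
    (h : fromBlocks e 0 0 e' * fromBlocks e 0 0 e' = fromBlocks e 0 0 e'),
    f (fromBlocks e 0 0 e') h = f e he + f e' he'

section Alg

variable {R : Type} [Ring R] {ι κ μ : Type} [Fintype ι] [Fintype κ] [Fintype μ]

theorem idem_sum {e : Matrix ι ι R} {e' : Matrix κ κ R} (he : e * e = e) (he' : e' * e' = e') :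
    fromBlocks e 0 0 e' * fromBlocks e 0 0 e' = fromBlocks e 0 0 e' := by
  simp only [fromBlocks_multiply, he, he', Matrix.mul_zero, Matrix.zero_mul, add_zero, zero_add]

theorem idem_map {R' : Type} [Ring R'] (φ : R →+* R') {e : Matrix ι ι R} (he : e * e = e) :
    e.map φ * e.map φ = e.map φ := by
  rw [← Matrix.map_mul, he]

theorem mvn_map {R' : Type} [Ring R'] (φ : R →+* R') {e : Matrix ι ι R} {e' : Matrix κ κ R}
    (h : MvN e e') : MvN (e.map φ) (e'.map φ) := by
  obtain ⟨x, y, h1, h2⟩ := h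
  exact ⟨x.map φ, y.map φ, by rw [← Matrix.map_mul, h1], by rw [← Matrix.map_mul, h2]⟩

theorem mvn_refl {e : Matrix ι ι R} (he : e * e = e) : MvN e e := ⟨e, e, he, he⟩

theorem mvn_symm {e : Matrix ι ι R} {e' : Matrix κ κ R} (h : MvN e e') : MvN e' e := by
  obtain ⟨x, y, h1, h2⟩ := h
  exact ⟨y, x, h2, h1⟩

theorem mvn_trans' {e : Matrix ι ι R} {e' : Matrix κ κ R} {e'' : Matrix μ μ R}
    (he : e * e = e) (he'' : e'' * e'' = e'') (h : MvN e e') (h' : MvN e' e'') : MvN e e'' := by
  obtain ⟨x, y, h1, h2⟩ := h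
  obtain ⟨x', y', h3, h4⟩ := h'
  refine ⟨x * x', y' * y, ?_, ?_⟩
  · calc x * x' * (y' * y) = x * (x' * y') * y := by simp only [Matrix.mul_assoc]
      _ = x * (y * x) * y := by rw [h3, h2]
      _ = (x * y) * (x * y) := by simp only [Matrix.mul_assoc]
      _ = e := by rw [h1, he]
  · calc y' * y * (x * x') = y' * (y * x) * x' := by simp only [Matrix.mul_assoc]
      _ = y' * (x' * y') * x' := by rw [h3, h2]
      _ = (y' * x') * (y' * x') := by simp only [Matrix.mul_assoc]
      _ = e'' := by rw [h4, he'']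

theorem mvn_sum {ν : Type} [Fintype ν] {e : Matrix ι ι R} {e' : Matrix κ κ R}
    {g : Matrix μ μ R} {g' : Matrix ν ν R} (h : MvN e e') (h' : MvN g g') :
    MvN (fromBlocks e 0 0 g) (fromBlocks e' 0 0 g') := by
  obtain ⟨x, y, h1, h2⟩ := h
  obtain ⟨x', y', h3, h4⟩ := h'
  refine ⟨fromBlocks x 0 0 x', fromBlocks y 0 0 y', ?_, ?_⟩
  · simp only [fromBlocks_multiply, h1, h3, Matrix.mul_zero, Matrix.zero_mul, add_zero, zero_add]
  · simp only [fromBlocks_multiply, h2, h4, Matrix.mul_zero, Matrix.zero_mul, add_zero, zero_add]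

theorem map_sum_blocks {R' : Type} [Ring R'] (φ : R →+* R') (e : Matrix ι ι R)
    (e' : Matrix κ κ R) :
    (fromBlocks e 0 0 e').map φ = fromBlocks (e.map φ) 0 0 (e'.map φ) := by
  ext i j
  rcases i with i | i <;> rcases j with j | j <;>
    simp only [map_apply, fromBlocks_apply₁₁, fromBlocks_apply₁₂, fromBlocks_apply₂₁,
      fromBlocks_apply₂₂, Matrix.zero_apply, map_zero]

/-- Pull back of an invariant along a ring homomorphism. -/
def Inv.comap {R' : Type} [Ring R'] {Γ : Type} [AddCommGroup Γ] (t : Inv R' Γ) (φ : R →+* R') :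
    Inv R Γ where
  f e he := t.f (e.map φ) (idem_map φ he)
  mvn e e' he he' h := t.mvn _ _ _ _ (mvn_map φ h)
  add e e' he he' h := by
    rw [← t.add _ _ (idem_map φ he) (idem_map φ he') (idem_sum (idem_map φ he) (idem_map φ he'))]
    congr 1
    exact map_sum_blocks φ e e'

/-- Push forward of an invariant along a homomorphism of the value groups. -/
def Inv.map {Γ Γ' : Type} [AddCommGroup Γ] [AddCommGroup Γ'] (t : Inv R Γ) (ψ : Γ →+ Γ') :
    Inv R Γ' where
  f e he := ψ (t.f e he)
  mvn e e' he he' h := by rw [t.mvn e e' he he' h]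
  add e e' he he' h := by rw [t.add e e' he he' h, map_add]

theorem Inv.congr {Γ : Type} [AddCommGroup Γ] (t : Inv R Γ) {e e' : Matrix ι ι R} (h : e = e')
    (he : e * e = e) (he' : e' * e' = e') : t.f e he = t.f e' he' := by
  subst h
  rfl

theorem Inv.zero {Γ : Type} [AddCommGroup Γ] (t : Inv R Γ)
    (h : (0 : Matrix ι ι R) * 0 = 0) : t.f (0 : Matrix ι ι R) h = 0 := by
  have h1 := t.add (0 : Matrix ι ι R) (0 : Matrix ι ι R) h h (idem_sum h h)
  have h2 : t.f (fromBlocks (0 : Matrix ι ι R) 0 0 (0 : Matrix ι ι R)) (idem_sum h h) =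
      t.f (0 : Matrix ι ι R) h :=
    t.mvn _ _ _ _ ⟨0, 0, by rw [Matrix.zero_mul, fromBlocks_zero], by rw [Matrix.zero_mul]⟩
  rw [h2] at h1
  exact (add_eq_left.1 h1.symm)

/-- Additivity for orthogonal idempotents of the same size. -/
theorem mvn_orth {e g : Matrix ι ι R} (he : e * e = e) (hg : g * g = g) (heg : e * g = 0)
    (hge : g * e = 0) : MvN (fromBlocks e 0 0 g) (e + g) := by
  refine ⟨fromRows e g, fromCols e g, ?_, ?_⟩
  · rw [fromRows_mul_fromCols, he, hg, heg, hge]
  · rw [fromCols_mul_fromRows, he, hg]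

theorem Inv.add_orth {Γ : Type} [AddCommGroup Γ] (t : Inv R Γ) {e g : Matrix ι ι R}
    (he : e * e = e) (hg : g * g = g) (heg : e * g = 0) (hge : g * e = 0)
    (h : (e + g) * (e + g) = e + g) : t.f (e + g) h = t.f e he + t.f g hg := by
  rw [← t.add e g he hg (idem_sum he hg)]
  exact (t.mvn _ _ _ _ (mvn_orth he hg heg hge)).symm

/-- The matrix over a subring given by a matrix with entries in the subring. -/
def liftS (S : Subring R) (x : Matrix ι κ R) (hx : ∀ i j, x i j ∈ S) : Matrix ι κ S :=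
  Matrix.of fun i j => ⟨x i j, hx i j⟩

omit [Fintype ι] [Fintype κ] in
theorem liftS_map (S : Subring R) (x : Matrix ι κ R) (hx : ∀ i j, x i j ∈ S) :
    (liftS S x hx).map S.subtype = x := rfl

omit [Fintype ι] [Fintype κ] in
theorem map_subtype_inj (S : Subring R) {x y : Matrix ι κ S}
    (h : x.map S.subtype = y.map S.subtype) : x = y := by
  ext i j
  exact congrFun (congrFun h i) j

theorem mul_mem_rect (S : Subring R) {x : Matrix ι κ R} {y : Matrix κ μ R}
    (hx : ∀ i j, x i j ∈ S) (hy : ∀ i j, y i j ∈ S) (i : ι) (j : μ) : (x * y) i j ∈ S := by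
  rw [Matrix.mul_apply]
  exact sum_mem fun k _ => S.mul_mem (hx i k) (hy k j)

end Alg

section Top

attribute [local instance] Matrix.linftyOpNormedRing

variable {B : Type} [NormedRing B] [CompleteSpace B] {ι κ : Type} [Fintype ι] [Fintype κ]

/-- Entrywise close idempotent matrices are equivalent. -/
theorem mvn_near (e : Matrix ι ι B) (he : e * e = e) :
    ∃ δ > 0, ∀ g : Matrix ι ι B, g * g = g → (∀ i j, ‖e i j - g i j‖ ≤ δ) → MvN e g := by
  classical
  have := mat_complete (A := B) (ι := ι)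
  set c : ℝ := (‖2 * e - 1‖ + 1) * (Fintype.card ι * Fintype.card ι + 1) with hc
  have hc0 : 0 < c := by positivity
  refine ⟨1 / c, by positivity, fun g hg h => ?_⟩
  refine mvn_of_close he hg ?_
  have h1 : ‖e - g‖ ≤ Fintype.card ι * (Fintype.card ι * (1 / c)) :=
    mat_norm_le_const (e - g) (1 / c) h
  have h2 : (0 : ℝ) ≤ ‖2 * e - 1‖ := norm_nonneg _
  have h3 : (0 : ℝ) ≤ (Fintype.card ι * Fintype.card ι : ℝ) := by positivity
  calc ‖2 * e - 1‖ * ‖e - g‖ ≤ ‖2 * e - 1‖ * (Fintype.card ι * (Fintype.card ι * (1 / c))) :=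
        mul_le_mul_of_nonneg_left h1 h2
    _ = (‖2 * e - 1‖ * (Fintype.card ι * Fintype.card ι)) / c := by ring
    _ < 1 := by
        rw [div_lt_one hc0, hc]
        nlinarith only [h2, h3]

/-- The values of an entrywise continuous family of idempotent matrices over a preconnected
space are equivalent. -/
theorem mvn_path {X : Type} [TopologicalSpace X] [PreconnectedSpace X] (e : X → Matrix ι ι B)
    (he : ∀ t, e t * e t = e t) (hc : ∀ i j, Continuous fun t => e t i j) (s t : X) :
    MvN (e s) (e t) := by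
  have hnear : ∀ t : X, ∀ᶠ s in nhds t, MvN (e t) (e s) := by
    intro t
    obtain ⟨δ, hδ, H⟩ := mvn_near (e t) (he t)
    have h1 : ∀ᶠ s in nhds t, ∀ i j, ‖e t i j - e s i j‖ ≤ δ := by
      refine Filter.eventually_all.2 fun i => Filter.eventually_all.2 fun j => ?_
      have hcont : Continuous fun s => ‖e t i j - e s i j‖ :=
        (continuous_const.sub (hc i j)).norm
      have h0 : (fun s => ‖e t i j - e s i j‖) t < δ := by
        simp only [sub_self, norm_zero, hδ]
      filter_upwards [hcont.continuousAt.eventually (gt_mem_nhds h0)] with s hs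
      exact hs.le
    filter_upwards [h1] with s hs
    exact H (e s) (he s) hs
  set U : Set X := {t | MvN (e s) (e t)} with hU
  have hopen : IsOpen U := by
    rw [isOpen_iff_mem_nhds]
    intro t ht
    filter_upwards [hnear t] with r hr
    exact mvn_trans' (he s) (he r) ht hr
  have hclosed : IsClosed U := by
    rw [← isOpen_compl_iff, isOpen_iff_mem_nhds]
    intro t ht
    filter_upwards [hnear t] with r hr
    intro hr'
    exact ht (mvn_trans' (he s) (he t) hr' (mvn_symm hr))
  have h0 : s ∈ U := mvn_refl (he s)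
  have huniv : U = Set.univ := by
    rcases isClopen_iff.1 ⟨hclosed, hopen⟩ with h | h
    · rw [h] at h0
      exact absurd h0 (Set.notMem_empty _)
    · exact h
  have : t ∈ U := by rw [huniv]; trivial
  exact this

/-- An invariant is constant along entrywise continuous families. -/
theorem Inv.path {Γ : Type} [AddCommGroup Γ] (T : Inv B Γ) {X : Type} [TopologicalSpace X]
    [PreconnectedSpace X] (e : X → Matrix ι ι B) (he : ∀ t, e t * e t = e t)
    (hc : ∀ i j, Continuous fun t => e t i j) (s t : X) : T.f (e s) (he s) = T.f (e t) (he t) :=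
  T.mvn _ _ _ _ (mvn_path e he hc s t)

variable (S : ℕ → Subring B) (hcl : ∀ k, IsClosed (S k : Set B)) (hmono : Monotone S)
  (hd : ∀ x : B, ∀ ε > 0, ∃ k, ∃ y ∈ S k, ‖x - y‖ < ε)

include hcl hmono hd

/-- Every idempotent matrix is equivalent to one with entries in some `S k`. -/
theorem onto (e : Matrix ι ι B) (he : e * e = e) :
    ∃ k, ∃ g : Matrix ι ι (S k), g * g = g ∧ MvN (g.map (S k).subtype) e := by
  classical
  have := mat_complete (A := B) (ι := ι)
  obtain ⟨δ, hδ, H⟩ := exists_idem_comm (A := Matrix ι ι B) (‖e‖ + 1) 1 (by positivity) one_pos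
  obtain ⟨k, a, ha, hea⟩ := matS_dense S hmono hd e δ hδ
  obtain ⟨g, hg, hgg, -, -, -, h⟩ := H (matS (S k)) (matS_closed _ (hcl k)) e he
    (by linarith only) a ha hea
  have hg' : ∀ i j, g i j ∈ S k := hg
  refine ⟨k, liftS (S k) g hg', map_subtype_inj _ ?_, h⟩
  rw [Matrix.map_mul, liftS_map, hgg]

/-- Square form of the descent. -/
theorem descend_sq (e g : Matrix ι ι B) (he : e * e = e) (hg : g * g = g)
    (k : ℕ) (hek : ∀ i j, e i j ∈ S k) (hgk : ∀ i j, g i j ∈ S k) (h : MvN e g) :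
    ∃ k' ≥ k, ∃ (x y : Matrix ι ι B), (∀ i j, x i j ∈ S k') ∧
      (∀ i j, y i j ∈ S k') ∧ x * y = e ∧ y * x = g := by
  classical
  have := mat_complete (A := B) (ι := ι)
  have h' : ∃ x y : Matrix ι ι B, x * y = e ∧ y * x = g := h
  have hek' : e ∈ (matS (S k) : Subring (Matrix ι ι B)) := hek
  have hgk' : g ∈ (matS (S k) : Subring (Matrix ι ι B)) := hgk
  obtain ⟨k', hk', X, hX, Y, hY, h1, h2⟩ := mvn_descend (A := Matrix ι ι B) (fun k => matS (S k))
    (fun k => matS_closed _ (hcl k)) (fun a b hab => matS_mono (hmono hab))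
    (matS_dense S hmono hd) e g he hg k hek' hgk' h'
  exact ⟨k', hk', X, Y, hX, hY, h1, h2⟩

/-- Equivalence of idempotent matrices with entries in `S k` descends to some `S k'`. -/
theorem descend_mem (e : Matrix ι ι B) (g : Matrix κ κ B) (he : e * e = e) (hg : g * g = g)
    (k : ℕ) (hek : ∀ i j, e i j ∈ S k) (hgk : ∀ i j, g i j ∈ S k) (h : MvN e g) :
    ∃ k' ≥ k, ∃ (x : Matrix ι κ B) (y : Matrix κ ι B), (∀ i j, x i j ∈ S k') ∧
      (∀ i j, y i j ∈ S k') ∧ x * y = e ∧ y * x = g := by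
  obtain ⟨P, P', hPP, hP'e, hPk, hP'k⟩ : ∃ (P : Matrix ι (ι ⊕ κ) B) (P' : Matrix (ι ⊕ κ) ι B),
      P * P' = e ∧ P' * e = P' ∧ (∀ i j, P i j ∈ S k) ∧ (∀ i j, P' i j ∈ S k) := by
    refine ⟨fromCols e 0, fromRows e 0, ?_, ?_, ?_, ?_⟩
    · rw [fromCols_mul_fromRows, he, Matrix.zero_mul, add_zero]
    · rw [fromRows_mul, he, Matrix.zero_mul]
    · intro i j
      rcases j with j | j
      · exact hek i j
      · exact (S k).zero_mem
    · intro i j
      rcases i with i | i
      · exact hek i j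
      · exact (S k).zero_mem
  obtain ⟨Q, Q', hQQ, hQ'g, hQk, hQ'k⟩ : ∃ (Q : Matrix κ (ι ⊕ κ) B) (Q' : Matrix (ι ⊕ κ) κ B),
      Q * Q' = g ∧ Q' * g = Q' ∧ (∀ i j, Q i j ∈ S k) ∧ (∀ i j, Q' i j ∈ S k) := by
    refine ⟨fromCols 0 g, fromRows 0 g, ?_, ?_, ?_, ?_⟩
    · rw [fromCols_mul_fromRows, hg, Matrix.zero_mul, zero_add]
    · rw [fromRows_mul, hg, Matrix.zero_mul]
    · intro i j
      rcases j with j | j
      · exact (S k).zero_mem
      · exact hgk i j
    · intro i j
      rcases i with i | i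
      · exact (S k).zero_mem
      · exact hgk i j
  have hE : P' * P * (P' * P) = P' * P := by
    calc P' * P * (P' * P) = P' * (P * P') * P := by simp only [Matrix.mul_assoc]
      _ = P' * P := by rw [hPP, hP'e]
  have hF : Q' * Q * (Q' * Q) = Q' * Q := by
    calc Q' * Q * (Q' * Q) = Q' * (Q * Q') * Q := by simp only [Matrix.mul_assoc]
      _ = Q' * Q := by rw [hQQ, hQ'g]
  have hm1 : MvN (P' * P) e := ⟨P', P, rfl, hPP⟩
  have hm2 : MvN g (Q' * Q) := ⟨Q, Q', hQQ, rfl⟩
  have hm : MvN (P' * P) (Q' * Q) := mvn_trans' hE hF (mvn_trans' hE hg hm1 h) hm2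
  obtain ⟨k', hk', X, Y, hX, hY, h1, h2⟩ := descend_sq S hcl hmono hd (P' * P) (Q' * Q) hE hF k
    (mul_mem_rect _ hP'k hPk) (mul_mem_rect _ hQ'k hQk) hm
  have up : ∀ {z : B}, z ∈ S k → z ∈ S k' := fun hz => hmono hk' hz
  refine ⟨k', hk', P * X * Q', Q * Y * P',
    mul_mem_rect _ (mul_mem_rect _ (fun i j => up (hPk i j)) hX) (fun i j => up (hQ'k i j)),
    mul_mem_rect _ (mul_mem_rect _ (fun i j => up (hQk i j)) hY) (fun i j => up (hP'k i j)),
    ?_, ?_⟩
  · calc P * X * Q' * (Q * Y * P') = P * X * (Q' * Q) * Y * P' := by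
          simp only [Matrix.mul_assoc]
      _ = P * (X * Y) * (X * Y) * P' := by rw [← h2]; simp only [Matrix.mul_assoc]
      _ = (P * P') * (P * P') * (P * P') := by rw [h1]; simp only [Matrix.mul_assoc]
      _ = e := by rw [hPP, he, he]
  · calc Q * Y * P' * (P * X * Q') = Q * Y * (P' * P) * X * Q' := by
          simp only [Matrix.mul_assoc]
      _ = Q * (Y * X) * (Y * X) * Q' := by rw [← h1]; simp only [Matrix.mul_assoc]
      _ = (Q * Q') * (Q * Q') * (Q * Q') := by rw [h2]; simp only [Matrix.mul_assoc]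
      _ = g := by rw [hQQ, hg, hg]

/-- Equivalence over `B` of idempotent matrices over `S a`, `S b` holds over some `S c`. -/
theorem descend {a b : ℕ} (e : Matrix ι ι (S a)) (g : Matrix κ κ (S b)) (he : e * e = e)
    (hg : g * g = g) (h : MvN (e.map (S a).subtype) (g.map (S b).subtype)) :
    ∃ c, ∃ (ha : a ≤ c) (hb : b ≤ c), MvN (e.map (Subring.inclusion (hmono ha)))
      (g.map (Subring.inclusion (hmono hb))) := by
  obtain ⟨c, hc, x, y, hx, hy, h1, h2⟩ := descend_mem S hcl hmono hd _ _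
    (idem_map (S a).subtype he) (idem_map (S b).subtype hg) (max a b)
    (fun i j => hmono (le_max_left a b) (e i j).2) (fun i j => hmono (le_max_right a b) (g i j).2) h
  refine ⟨c, (le_max_left a b).trans hc, (le_max_right a b).trans hc, liftS _ x hx, liftS _ y hy,
    map_subtype_inj _ ?_, map_subtype_inj _ ?_⟩
  · rw [Matrix.map_mul, liftS_map, liftS_map, h1]
    rfl
  · rw [Matrix.map_mul, liftS_map, liftS_map, h2]
    rfl

/-- Compatible invariants of the `S k` extend to an invariant of `B`. -/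
theorem ext_inv {Γ : Type} [AddCommGroup Γ] (t : ∀ k, Inv (S k) Γ)
    (ht : ∀ (a b : ℕ) (h : a ≤ b) {μ : Type} [Fintype μ] (e : Matrix μ μ (S a)) (he : e * e = e),
      (t b).f (e.map (Subring.inclusion (hmono h))) (idem_map _ he) = (t a).f e he) :
    ∃ T : Inv B Γ, ∀ (k : ℕ) {μ : Type} [Fintype μ] (e : Matrix μ μ (S k)) (he : e * e = e),
      T.f (e.map (S k).subtype) (idem_map _ he) = (t k).f e he := by
  have wd : ∀ {μ ν : Type} [Fintype μ] [Fintype ν] {a b : ℕ} (e : Matrix μ μ (S a))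
      (g : Matrix ν ν (S b)) (he : e * e = e) (hg : g * g = g),
      MvN (e.map (S a).subtype) (g.map (S b).subtype) → (t a).f e he = (t b).f g hg := by
    intro μ ν _ _ a b e g he hg h
    obtain ⟨c, ha, hb, h'⟩ := descend S hcl hmono hd e g he hg h
    rw [← ht a c ha e he, ← ht b c hb g hg]
    exact (t c).mvn _ _ _ _ h'
  have on : ∀ {μ : Type} [Fintype μ] (e : Matrix μ μ B), e * e = e →
      ∃ k, ∃ g : Matrix μ μ (S k), g * g = g ∧ MvN (g.map (S k).subtype) e :=
    fun e he => onto S hcl hmono hd e he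
  choose k g hg hm using @on
  have key : ∀ {μ : Type} [Fintype μ] (e : Matrix μ μ B) (he : e * e = e) (a : ℕ)
      (p : Matrix μ μ (S a)) (hp : p * p = p), MvN (p.map (S a).subtype) e →
      (t (k e he)).f (g e he) (hg e he) = (t a).f p hp := by
    intro μ _ e he a p hp h
    exact wd _ _ _ _ (mvn_trans' (idem_map _ (hg e he)) (idem_map _ hp) (hm e he) (mvn_symm h))
  refine ⟨⟨fun e he => (t (k e he)).f (g e he) (hg e he), ?_, ?_⟩, ?_⟩
  · intro μ ν _ _ e e' he he' h
    exact wd _ _ _ _ (mvn_trans' (idem_map _ (hg e he)) (idem_map _ (hg e' he'))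
      (mvn_trans' (idem_map _ (hg e he)) he' (hm e he) h) (mvn_symm (hm e' he')))
  · intro μ ν _ _ e e' he he' h
    set c : ℕ := max (k e he) (k e' he') with hc
    have ha : k e he ≤ c := le_max_left _ _
    have hb : k e' he' ≤ c := le_max_right _ _
    have hp := idem_map (Subring.inclusion (hmono ha)) (hg e he)
    have hq := idem_map (Subring.inclusion (hmono hb)) (hg e' he')
    show (t _).f _ _ = (t _).f _ _ + (t _).f _ _
    rw [← ht _ c ha _ (hg e he), ← ht _ c hb _ (hg e' he'), ← (t c).add _ _ hp hq (idem_sum hp hq)]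
    refine key _ h c _ _ ?_
    rw [map_sum_blocks]
    exact mvn_sum (hm e he) (hm e' he')
  · intro a μ _ e he
    exact key _ _ a e he (mvn_refl (idem_map _ he))

/-- Invariants of `B` are determined by their values on matrices over the `S k`. -/
theorem inv_ext {Γ : Type} [AddCommGroup Γ] (T T' : Inv B Γ)
    (h : ∀ (k : ℕ) {μ : Type} [Fintype μ] (e : Matrix μ μ (S k)) (he : e * e = e),
      T.f (e.map (S k).subtype) (idem_map _ he) = T'.f (e.map (S k).subtype) (idem_map _ he))
    (e : Matrix ι ι B) (he : e * e = e) : T.f e he = T'.f e he := by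
  obtain ⟨k, g, hg, hm⟩ := onto S hcl hmono hd e he
  rw [← T.mvn _ _ (idem_map _ hg) he hm, ← T'.mvn _ _ (idem_map _ hg) he hm]
  exact h k g hg

end Top

end Vale.Agent.P089GS
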