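import Vale.Agent.P089GM.Miss
import Vale.Agent.P089G44.Stab

set_option linter.all false

/-!
# Transport from Hilbert spaces with bases to the concrete Hilbert spaces
-/

namespace Vale.Agent.P089GS

open scoped InnerProductSpace
open Matrix Vale.Agent.P089 Vale.Agent.P089.Asm Vale.Agent.P086 Vale.Agent.P089Z
  Vale.Agent.P089G Vale.Agent.P089.Op

section Alg

variable {R S : Type} [Ring R] [Ring S]

/-- A ring isomorphism, as a homomorphism that need not be unital. -/
def nu (φ : R ≃+* S) : R →ₙ+* S := φ.toNonUnitalRingHom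

theorem nu_apply (φ : R ≃+* S) (x : R) : nu φ x = φ x := rfl

/-- The isomorphism of `K_0`-groups given by a ring isomorphism. -/
noncomputable def kEq (φ : R ≃+* S) : KZero R ≃+ KZero S where
  toFun := KZero.map (nu φ)
  invFun := KZero.map (nu φ.symm)
  left_inv x := by
    rw [← KZero.map_comp]
    have h : (nu φ.symm).comp (nu φ) = NonUnitalRingHom.id R :=
      NonUnitalRingHom.ext fun x => φ.symm_apply_apply x
    rw [h, KZero.map_id]
  right_inv x := by
    rw [← KZero.map_comp]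
    have h : (nu φ).comp (nu φ.symm) = NonUnitalRingHom.id S :=
      NonUnitalRingHom.ext fun x => φ.apply_symm_apply x
    rw [h, KZero.map_id]
  map_add' := map_add _

theorem kEq_apply (φ : R ≃+* S) (x : KZero R) : kEq φ x = KZero.map (nu φ) x := rfl

theorem kEq_symm_apply (φ : R ≃+* S) (x : KZero S) :
    (kEq φ).symm x = KZero.map (nu φ.symm) x := rfl

theorem kEq_cls (φ : R ≃+* S) {ι : Type} [Fintype ι] {e : Matrix ι ι R} (he : e * e = e) :
    kEq φ (KZero.cls e he) = KZero.cls (e.map φ) (map_idem (nu φ) he) := KZero.map_cls _ he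

theorem kEq_symm_cls (φ : R ≃+* S) {ι : Type} [Fintype ι] {e : Matrix ι ι S} (he : e * e = e) :
    (kEq φ).symm (KZero.cls e he) = KZero.cls (e.map φ.symm) (map_idem (nu φ.symm) he) :=
  KZero.map_cls _ he

/-- A ring isomorphism restricts to subrings. -/
def subEq {σ τ : Type} [SetLike σ R] [SubringClass σ R] [SetLike τ S] [SubringClass τ S]
    (φ : R ≃+* S) (A : σ) (B : τ) (h : ∀ x, x ∈ A ↔ φ x ∈ B) : A ≃+* B where
  toFun x := ⟨φ x.1, (h _).1 x.2⟩
  invFun y := ⟨φ.symm y.1, (h _).2 (by rw [φ.apply_symm_apply]; exact y.2)⟩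
  left_inv x := Subtype.ext (φ.symm_apply_apply x.1)
  right_inv y := Subtype.ext (φ.apply_symm_apply y.1)
  map_mul' x y := Subtype.ext (φ.map_mul x.1 y.1)
  map_add' x y := Subtype.ext (φ.map_add x.1 y.1)

end Alg

variable {G K E : Type} [Group G] [NormedAddCommGroup K] [InnerProductSpace ℂ K] [CompleteSpace K]
  [NormedAddCommGroup E] [InnerProductSpace ℂ E] [CompleteSpace E]

theorem frE_symm_continuous {I : Type} (c : HilbertBasis I ℂ E) : Continuous (BC.frE c).symm := by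
  refine Isometry.continuous (AddMonoidHomClass.isometry_of_norm _ fun T => ?_)
  rw [← BC.frE_norm c, StarAlgEquiv.apply_symm_apply]

theorem frE_inj {I : Type} (c : HilbertBasis I ℂ E) {S T : E →L[ℂ] E}
    (h : BC.frE c S = BC.frE c T) : S = T := (BC.frE c).injective h

theorem frE_toH (b : HilbertBasis G ℂ K) (P : L2 G →L[ℂ] L2 G) : BC.frE b (BC.toH b P) = P := by
  ext1 v
  rw [BC.frE_apply, BC.toH_apply, LinearIsometryEquiv.apply_symm_apply,
    LinearIsometryEquiv.apply_symm_apply]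

theorem toH_frE (b : HilbertBasis G ℂ K) (T : K →L[ℂ] K) : BC.toH b (BC.frE b T) = T :=
  (BC.frE b).injective (frE_toH b _)

theorem frE_symm_eq (b : HilbertBasis G ℂ K) (P : L2 G →L[ℂ] L2 G) :
    (BC.frE b).symm P = BC.toH b P :=
  frE_inj b (by rw [StarAlgEquiv.apply_symm_apply, frE_toH])

theorem isRoe_iff {c : HilbertBasis (G × ℕ) ℂ E} {T : E →L[ℂ] E} :
    BC.IsRoe c T ↔ RoeB (BC.frE c T) :=
  ⟨fun h => RoeB.of_isRoe (BC.isRoe_frE h), fun h => isRoe_of_frE h.isRoe⟩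

theorem closure_isRoe_iff {c : HilbertBasis (G × ℕ) ℂ E} {T : E →L[ℂ] E} :
    T ∈ closure {S | BC.IsRoe c S} ↔ BC.frE c T ∈ closure {S | IsRoe S} := by
  constructor
  · exact fun h => map_mem_closure (BC.frE_isometry c).continuous h fun S hS => BC.isRoe_frE hS
  · intro h
    have h1 := map_mem_closure (t := {S | BC.IsRoe c S}) (frE_symm_continuous c) h
      fun S hS => isRoe_of_frE (by rw [StarAlgEquiv.apply_symm_apply]; exact hS)
    rwa [StarAlgEquiv.symm_apply_apply] at h1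

theorem isU_iff' {c : HilbertBasis (G × ℕ) ℂ E} {T : E →L[ℂ] E} :
    BC.IsU c T ↔ BC.frE c T ∈ UU G := by
  constructor
  · exact fun h => IsU.mem_UU (BC.isU_frE h)
  · intro h
    obtain ⟨z, S, hS, hT⟩ := isU_of_mem_UU h
    refine ⟨z, (BC.frE c).symm S, closure_isRoe_iff.2 (by rwa [StarAlgEquiv.apply_symm_apply]),
      fun v => ?_⟩
    have h1 : T = z • 1 + (BC.frE c).symm S := by
      apply frE_inj c
      rw [hT, map_add, map_smul, map_one, StarAlgEquiv.apply_symm_apply]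
    rw [h1]
    rfl

theorem cstar_iff {b : HilbertBasis G ℂ K} {T : K →L[ℂ] K} :
    T ∈ BC.CstarR b ↔ BC.frE b T ∈ CrG G := by
  classical
  rw [mem_CrG]
  constructor
  · intro h
    refine map_mem_closure (BC.frE_isometry b).continuous h ?_
    rintro S ⟨a, ha⟩
    have h1 : S = BC.toH b (a.sum fun g z => z • lam g) := by
      refine ContinuousLinearMap.ext_on (s := Set.range b) ?_ ?_
      · exact Submodule.dense_iff_topologicalClosure_eq_top.2 b.dense_span
      · rintro _ ⟨x, rfl⟩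
        rw [ha, Finsupp.sum, Finsupp.sum, map_sum, ContinuousLinearMap.sum_apply]
        refine Finset.sum_congr rfl fun g _ => ?_
        rw [map_smul, ContinuousLinearMap.smul_apply, BC.toH_basis,
          BC.isLam_single (isLam_lam g), b.repr_symm_single]
    rw [h1, frE_toH]
    exact Submodule.sum_mem _ fun g _ =>
      Submodule.smul_mem _ _ (Submodule.subset_span ⟨g, isLam_lam g⟩)
  · intro h
    have h1 := BC.toH_mem b h
    rwa [toH_frE] at h1

theorem isCorner_iff {b : HilbertBasis G ℂ K} {c : HilbertBasis (G × ℕ) ℂ E} {T : K →L[ℂ] K}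
    {S : E →L[ℂ] E} : BC.IsCorner b c T S ↔ BC.frE c S = Ei 0 0 (BC.frE b T) := by
  constructor
  · intro h
    refine IsCorner.eq_Ei ⟨fun g h' => ?_, fun i l hil => ?_⟩
    · rw [BC.ent_frE, BC.ent_frE]
      exact h.1 g h'
    · rw [BC.ent_frE]
      exact h.2 i l hil
  · intro h
    have h1 := isCorner_Ei (BC.frE b T)
    rw [← h] at h1
    refine ⟨fun g h' => ?_, fun i l hil => ?_⟩
    · rw [← BC.ent_frE, ← BC.ent_frE]
      exact h1.1 g h'
    · rw [← BC.ent_frE]
      exact h1.2 i l hil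

theorem isCorner_unique {b : HilbertBasis G ℂ K} {c : HilbertBasis (G × ℕ) ℂ E} {T : K →L[ℂ] K}
    {S S' : E →L[ℂ] E} (h : BC.IsCorner b c T S) (h' : BC.IsCorner b c T S') : S = S' :=
  (BC.frE c).injective ((isCorner_iff.1 h).trans (isCorner_iff.1 h').symm)

theorem exists_isCorner (b : HilbertBasis G ℂ K) (c : HilbertBasis (G × ℕ) ℂ E) (T : K →L[ℂ] K) :
    ∃ S, BC.IsCorner b c T S :=
  ⟨(BC.frE c).symm (Ei 0 0 (BC.frE b T)), isCorner_iff.2 (StarAlgEquiv.apply_symm_apply _ _)⟩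

theorem isU_of_isCorner {b : HilbertBasis G ℂ K} {c : HilbertBasis (G × ℕ) ℂ E} {T : K →L[ℂ] K}
    {S : E →L[ℂ] E} (hT : T ∈ BC.CstarR b) (h : BC.IsCorner b c T S) : BC.IsU c S := by
  rw [isU_iff', isCorner_iff.1 h]
  exact Ei_mem_UU (mem_CrG.1 (cstar_iff.1 hT))

/-- The conjugation as a ring isomorphism. -/
noncomputable def frR {I : Type} (c : HilbertBasis I ℂ E) :
    (E →L[ℂ] E) ≃+* (L2 I →L[ℂ] L2 I) := (BC.frE c).toRingEquiv

theorem frR_apply {I : Type} (c : HilbertBasis I ℂ E) (T : E →L[ℂ] E) :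
    frR c T = BC.frE c T := rfl

/-- The reduced group C*-algebra as a subalgebra. -/
noncomputable def CA (b : HilbertBasis G ℂ K) : Subring (K →L[ℂ] K) :=
  (CrG G).toSubalgebra.toSubring.comap (frR b).toRingHom

theorem mem_CA {b : HilbertBasis G ℂ K} {T : K →L[ℂ] K} : T ∈ CA b ↔ T ∈ BC.CstarR b :=
  cstar_iff.symm

/-- The unitization of the Roe algebra as a subring. -/
noncomputable def UA (c : HilbertBasis (G × ℕ) ℂ E) : Subring (E →L[ℂ] E) :=
  (UU G).toSubring.comap (frR c).toRingHom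

theorem mem_UA {c : HilbertBasis (G × ℕ) ℂ E} {T : E →L[ℂ] E} : T ∈ UA c ↔ BC.IsU c T :=
  isU_iff'.symm

theorem mem_closure_cstar {b : HilbertBasis G ℂ K} {T : K →L[ℂ] K} :
    T ∈ Subring.closure (BC.CstarR b) ↔ T ∈ BC.CstarR b :=
  ⟨fun h => mem_CA.1 ((Subring.closure_le (t := CA b)).2 (fun _ hS => mem_CA.2 hS) h),
    fun h => Subring.subset_closure h⟩

theorem mem_closure_isU {c : HilbertBasis (G × ℕ) ℂ E} {T : E →L[ℂ] E} :
    T ∈ Subring.closure {S | BC.IsU c S} ↔ BC.IsU c T :=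
  ⟨fun h => mem_UA.1 ((Subring.closure_le (t := UA c)).2 (fun _ hS => mem_UA.2 hS) h),
    fun h => Subring.subset_closure h⟩

section Sub

variable {σ τ : Type} [SetLike σ (K →L[ℂ] K)] [SubringClass σ (K →L[ℂ] K)]
  [SetLike τ (E →L[ℂ] E)] [SubringClass τ (E →L[ℂ] E)]

/-- The isomorphism with the concrete reduced group C*-algebra. -/
noncomputable def eA (b : HilbertBasis G ℂ K) (A : σ) (hA : ∀ T, T ∈ A ↔ T ∈ BC.CstarR b) :
    A ≃+* CrG G :=
  subEq (frR b) A (CrG G) fun T => (hA T).trans cstar_iff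

theorem eA_val (b : HilbertBasis G ℂ K) (A : σ) (hA : ∀ T, T ∈ A ↔ T ∈ BC.CstarR b) (x : A) :
    (eA b A hA x).1 = BC.frE b x.1 := rfl

theorem eA_symm_val (b : HilbertBasis G ℂ K) (A : σ) (hA : ∀ T, T ∈ A ↔ T ∈ BC.CstarR b)
    (x : CrG G) : ((eA b A hA).symm x).1 = BC.toH b x.1 := frE_symm_eq b x.1

/-- The isomorphism with the concrete unitized Roe algebra. -/
noncomputable def eU (c : HilbertBasis (G × ℕ) ℂ E) (B : τ) (hB : ∀ T, T ∈ B ↔ BC.IsU c T) :
    B ≃+* UU G :=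
  subEq (frR c) B (UU G) fun T => (hB T).trans isU_iff'

theorem eU_val (c : HilbertBasis (G × ℕ) ℂ E) (B : τ) (hB : ∀ T, T ∈ B ↔ BC.IsU c T) (x : B) :
    (eU c B hB x).1 = BC.frE c x.1 := rfl

theorem eU_symm_val (c : HilbertBasis (G × ℕ) ℂ E) (B : τ) (hB : ∀ T, T ∈ B ↔ BC.IsU c T)
    (x : UU G) : ((eU c B hB).symm x).1 = (BC.frE c).symm x.1 := rfl

/-- The corner map from a model of the reduced group C*-algebra into `UU G`. -/
noncomputable def corA (b : HilbertBasis G ℂ K) (A : σ) (hA : ∀ T, T ∈ A ↔ T ∈ BC.CstarR b) :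
    A →ₙ+* UU G :=
  (P089G44.cor G).comp (nu (eA b A hA))

theorem corA_val (b : HilbertBasis G ℂ K) (A : σ) (hA : ∀ T, T ∈ A ↔ T ∈ BC.CstarR b) (x : A) :
    (corA b A hA x).1 = Ei 0 0 (BC.frE b x.1) := rfl

theorem map_corA (b : HilbertBasis G ℂ K) (A : σ) (hA : ∀ T, T ∈ A ↔ T ∈ BC.CstarR b)
    (x : KZero A) :
    KZero.map (corA b A hA) x = KZero.map (P089G44.cor G) (kEq (eA b A hA) x) :=
  KZero.map_comp _ _ x

/-- The corner map between the models. -/
noncomputable def corE (b : HilbertBasis G ℂ K) (c : HilbertBasis (G × ℕ) ℂ E) (A : σ)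
    (hA : ∀ T, T ∈ A ↔ T ∈ BC.CstarR b) (B : τ) (hB : ∀ T, T ∈ B ↔ BC.IsU c T) : A →ₙ+* B :=
  (nu (eU c B hB).symm).comp (corA b A hA)

theorem isCorner_corE (b : HilbertBasis G ℂ K) (c : HilbertBasis (G × ℕ) ℂ E) (A : σ)
    (hA : ∀ T, T ∈ A ↔ T ∈ BC.CstarR b) (B : τ) (hB : ∀ T, T ∈ B ↔ BC.IsU c T) (x : A) :
    BC.IsCorner b c x.1 (corE b c A hA B hB x).1 :=
  isCorner_iff.2 (StarAlgEquiv.apply_symm_apply _ _)

/-- Every homomorphism that acts as the corner is the corner map. -/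
theorem eq_corE (b : HilbertBasis G ℂ K) (c : HilbertBasis (G × ℕ) ℂ E) (A : σ)
    (hA : ∀ T, T ∈ A ↔ T ∈ BC.CstarR b) (B : τ) (hB : ∀ T, T ∈ B ↔ BC.IsU c T) (φ : A →ₙ+* B)
    (h : ∀ x, BC.IsCorner b c x.1 (φ x).1) : φ = corE b c A hA B hB :=
  NonUnitalRingHom.ext fun x =>
    Subtype.ext (isCorner_unique (h x) (isCorner_corE b c A hA B hB x))

theorem kEq_map_corE (b : HilbertBasis G ℂ K) (c : HilbertBasis (G × ℕ) ℂ E) (A : σ)
    (hA : ∀ T, T ∈ A ↔ T ∈ BC.CstarR b) (B : τ) (hB : ∀ T, T ∈ B ↔ BC.IsU c T) (x : KZero A) :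
    kEq (eU c B hB) (KZero.map (corE b c A hA B hB) x) =
      KZero.map (P089G44.cor G) (kEq (eA b A hA) x) := by
  rw [← map_corA, corE, KZero.map_comp]
  exact (kEq (eU c B hB)).apply_symm_apply _

theorem map_corA_inj (b : HilbertBasis G ℂ K) (A : σ) (hA : ∀ T, T ∈ A ↔ T ∈ BC.CstarR b) :
    Function.Injective (KZero.map (corA b A hA)) := fun x y h => by
  rw [map_corA, map_corA] at h
  exact (kEq (eA b A hA)).injective (P089G44.corK_inj h)

theorem map_corE_inj (b : HilbertBasis G ℂ K) (c : HilbertBasis (G × ℕ) ℂ E) (A : σ)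
    (hA : ∀ T, T ∈ A ↔ T ∈ BC.CstarR b) (B : τ) (hB : ∀ T, T ∈ B ↔ BC.IsU c T) :
    Function.Injective (KZero.map (corE b c A hA B hB)) := fun x y h => by
  have h1 := congrArg (kEq (eU c B hB)) h
  rw [kEq_map_corE, kEq_map_corE] at h1
  exact (kEq (eA b A hA)).injective (P089G44.corK_inj h1)

theorem corA_range (b : HilbertBasis G ℂ K) (A : σ) (hA : ∀ T, T ∈ A ↔ T ∈ BC.CstarR b)
    {ι : Type} [Fintype ι] {e f : Matrix ι ι (UU G)} (he : e * e = e) (hf : f * f = f)
    (h : ∀ i j, (e i j - f i j).1 ∈ closure {S | IsRoe S}) :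
    ∃! x, KZero.map (corA b A hA) x = KZero.cls e he - KZero.cls f hf := by
  obtain ⟨y, hy, -⟩ := P089G44.corK_range' he hf h
  have h1 : KZero.map (corA b A hA) ((kEq (eA b A hA)).symm y) =
      KZero.cls e he - KZero.cls f hf := by
    rw [map_corA, AddEquiv.apply_symm_apply]
    exact hy
  exact ⟨_, h1, fun z hz => map_corA_inj b A hA (hz.trans h1.symm)⟩

theorem corE_range (b : HilbertBasis G ℂ K) (c : HilbertBasis (G × ℕ) ℂ E) (A : σ)
    (hA : ∀ T, T ∈ A ↔ T ∈ BC.CstarR b) (B : τ) (hB : ∀ T, T ∈ B ↔ BC.IsU c T)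
    {ι : Type} [Fintype ι] {e f : Matrix ι ι B} (he : e * e = e) (hf : f * f = f)
    (h : ∀ i j, (e i j - f i j).1 ∈ closure {S | BC.IsRoe c S}) :
    ∃! x, KZero.map (corE b c A hA B hB) x = KZero.cls e he - KZero.cls f hf := by
  obtain ⟨y, hy, -⟩ := P089G44.corK_range' (map_idem (nu (eU c B hB)) he)
    (map_idem (nu (eU c B hB)) hf) fun i j => by
      have h1 := closure_isRoe_iff.1 (h i j)
      rw [← eU_val c B hB, map_sub] at h1
      exact h1
  have h1 : KZero.map (corE b c A hA B hB) ((kEq (eA b A hA)).symm y) =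
      KZero.cls e he - KZero.cls f hf := by
    apply (kEq (eU c B hB)).injective
    rw [kEq_map_corE, AddEquiv.apply_symm_apply, map_sub, kEq_cls, kEq_cls]
    exact hy
  exact ⟨_, h1, fun z hz => map_corE_inj b c A hA B hB (hz.trans h1.symm)⟩

end Sub

/-- The inclusion of `UU G` in the operators on `E`. -/
noncomputable def valE (c : HilbertBasis (G × ℕ) ℂ E) : UU G →+* (E →L[ℂ] E) :=
  (frR c).symm.toRingHom.comp (valU G)

theorem valE_apply (c : HilbertBasis (G × ℕ) ℂ E) (x : UU G) :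
    valE c x = (BC.frE c).symm x.1 := rfl

theorem frE_valE (c : HilbertBasis (G × ℕ) ℂ E) (x : UU G) : BC.frE c (valE c x) = x.1 :=
  StarAlgEquiv.apply_symm_apply _ _

theorem valE_inj (c : HilbertBasis (G × ℕ) ℂ E) : Function.Injective (valE c) :=
  (frR c).symm.injective.comp valU_inj

theorem isU_iff_valE (c : HilbertBasis (G × ℕ) ℂ E) (T : E →L[ℂ] E) :
    BC.IsU c T ↔ ∃ a, valE c a = T :=
  ⟨fun h => ⟨⟨BC.frE c T, isU_iff'.1 h⟩, (BC.frE c).symm_apply_apply T⟩,
    fun ⟨a, h⟩ => isU_iff'.2 (by rw [← h, frE_valE]; exact a.2)⟩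

/-- The relation `SameK` for the predicate `IsU c` is equality in `K_0(UU G)`. -/
theorem sameK_iff (c : HilbertBasis (G × ℕ) ℂ E) {κ : Type} [Fintype κ] [DecidableEq κ]
    {e f : Matrix κ κ (UU G)} (he : e * e = e) (hf : f * f = f) :
    BC.SameK (BC.IsU c) (e.map (valE c)) (f.map (valE c)) ↔ KZero.cls e he = KZero.cls f hf :=
  (cls_eq_iff_sameK (valE c) (valE_inj c) (isU_iff_valE c) he hf).symm

/-- The relation `IndexEq` for the predicate `IsU c` is an equation in `K_0(UU G)`. -/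
theorem indexEq_iff' (c : HilbertBasis (G × ℕ) ℂ E) {M : Matrix (Fin 2) (Fin 2) (UU G)}
    (hM : addDiag M * addDiag M = addDiag M) {m : ℕ} {q : Matrix (Fin m) (Fin m) (UU G)}
    (hq : q * q = q) : IndexEq (BC.IsU c) (M.map (valE c)) (q.map (valE c)) ↔
      KZero.cls (addDiag M) hM - KZero.cls (diag01 (UU G)) (diag01_idem _) = KZero.cls q hq :=
  indexEq_iff (valE c) (valE_inj c) (isU_iff_valE c) hM hq

end Vale.Agent.P089GS
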